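import Vale.Agent.P039.Bt.H668.A2
import Vale.Agent.P039.Bn.L2.T1
import Vale.Agent.P039.Bn.L2.T2
import Vale.Agent.P039.H443.L3Q

/-!
# P039-B: `CycStmt` (STEP 2 and the sign formula)
-/

namespace Vale.Agent.P039.Bt.H668

open Vale.Agent.P039.Bn

/-- **CycStmt.** -/
theorem cycStmt : Bz.CycStmt := by
  intro B W V _ _ _ _ M hM b₀
  classical
  exact cyc_of (ep := H443.eps) rfl rfl (H443.cyc_pmap M (PMap.t1 M) (PMap.t2 M) hM b₀)

end Vale.Agent.P039.Bt.H668
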