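import Vale.Agent.P039.Bz.Stmt
import Vale.Agent.P039.H545.Four
import Vale.Agent.P039.H788.Det

/-!
# P039-B, adapter A1: `AbsStmt` from `H545.four` and `H788.step3`
-/

namespace Vale.Agent.P039.Bt.H668

open Finset Equiv

variable {B V : Type} [Fintype B] [Fintype V] [DecidableEq B] [DecidableEq V]
  {F : B → Fin 3 → Option V}

omit [Fintype B] [Fintype V] [DecidableEq B] [DecidableEq V] in
theorem mat_of_bz {f : B → Fin 3} (h : Bz.Mat F f) : H545.Mat F f := by
  obtain ⟨φ, hφ⟩ := h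
  refine ⟨fun b => by rw [hφ]; simp, fun b b' hbb => ?_⟩
  rw [hφ, hφ] at hbb
  exact φ.injective (Option.some.inj hbb)

omit [DecidableEq B] [DecidableEq V] in
theorem bz_of_mat (hc : Fintype.card B = Fintype.card V) {f : B → Fin 3} (h : H545.Mat F f) :
    Bz.Mat F f := by
  classical
  have hs : ∀ b, ∃ v, F b (f b) = some v := fun b => Option.ne_none_iff_exists'.mp (h.1 b)
  choose φ hφ using hs
  have hi : Function.Injective φ := fun b b' e => h.2 b b' (by rw [hφ, hφ, e])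
  have hb : Function.Bijective φ := (Fintype.bijective_iff_injective_and_card φ).mpr ⟨hi, hc⟩
  exact ⟨Equiv.ofBijective φ hb, fun b => hφ b⟩

omit [Fintype B] [Fintype V] [DecidableEq B] [DecidableEq V] in
/-- the invariant sets of a pair of matchings -/
theorem inv_iff {f g : B → Fin 3} {φ ψ : B ≃ V} (hφ : ∀ b, F b (f b) = some (φ b))
    (hψ : ∀ b, F b (g b) = some (ψ b)) (T : Finset B) :
    H545.Inv F f g T ↔ ∀ b, b ∈ T ↔ (φ.trans ψ.symm) b ∈ T := by
  constructor
  · intro h b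
    refine h b _ ?_
    rw [hφ, hψ]
    simp
  · intro h b b' hbb
    rw [hφ, hψ] at hbb
    have h1 : b' = (φ.trans ψ.symm) b := by
      rw [Equiv.trans_apply, Option.some.inj hbb, Equiv.symm_apply_apply]
    rw [h1]
    exact h b

omit [Fintype B] [DecidableEq B] in
theorem mem_zpow_iff {σ : Perm B} {T : Finset B} (h : ∀ b, b ∈ T ↔ σ b ∈ T) (k : ℤ) (b : B) :
    b ∈ T ↔ (σ ^ k) b ∈ T := by
  have h1 : ∀ (n : ℕ) (b : B), b ∈ T ↔ (σ ^ n) b ∈ T := by
    intro n
    induction n with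
    | zero => intro b; simp
    | succ n ih => intro b; rw [pow_succ', Perm.mul_apply, ← h, ih]
  obtain ⟨n, rfl | rfl⟩ := k.eq_nat_or_neg
  · rw [zpow_natCast]; exact h1 n b
  · rw [h1 n ((σ ^ (-(n : ℤ))) b), zpow_neg, zpow_natCast]
    simp

/-- a minimal invariant set is a cycle -/
theorem minInv_sameCycle {f g : B → Fin 3} {φ ψ : B ≃ V} (hφ : ∀ b, F b (f b) = some (φ b))
    (hψ : ∀ b, F b (g b) = some (ψ b)) {C : Finset B} (h : H545.MinInv F f g C) :
    ∃ b₁, ∀ b, b ∈ C ↔ Perm.SameCycle (φ.trans ψ.symm) b₁ b := by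
  classical
  obtain ⟨⟨b₁, hb₁⟩, hI, hmin⟩ := h
  set σ : Perm B := φ.trans ψ.symm with hσ
  have hI' := (inv_iff hφ hψ C).mp hI
  set T : Finset B := univ.filter fun b => σ.SameCycle b₁ b with hT
  have hTC : T ⊆ C := by
    intro b hb
    obtain ⟨k, rfl⟩ := (mem_filter.mp hb).2
    exact (mem_zpow_iff hI' k b₁).mp hb₁
  have hTn : T.Nonempty := ⟨b₁, mem_filter.mpr ⟨mem_univ _, Perm.SameCycle.refl _ _⟩⟩
  have hTI : H545.Inv F f g T := by
    rw [inv_iff hφ hψ]
    intro b
    rw [hT, mem_filter, mem_filter]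
    simp only [mem_univ, true_and]
    exact Perm.sameCycle_apply_right.symm
  have hTe := hmin T hTC hTn hTI
  refine ⟨b₁, fun b => ?_⟩
  rw [← hTe, hT, mem_filter]
  simp

theorem eps_eq {x : Fin 3} (h : x ≠ 0) : H545.eps x = Bz.eps x := by
  revert h x; decide

theorem eps_eq' (x : Fin 3) : Vale.P039.H788.eps x = Bz.eps x := by
  revert x; decide

/-- **AbsStmt.** -/
theorem absStmt : Bz.AbsStmt := by
  intro B V _ _ _ _ F cl hcl hcyc hex
  classical
  obtain ⟨u, hu⟩ := hcyc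
  have hc : Fintype.card B = Fintype.card V := by
    obtain ⟨f, -, ⟨φ, -⟩, -⟩ := hex
    exact Fintype.card_congr φ
  obtain ⟨f, hf, hsum⟩ := H545.four F u (by
    intro f g hf hg hd C hC
    obtain ⟨φ, hφ⟩ := bz_of_mat hc hf
    obtain ⟨ψ, hψ⟩ := bz_of_mat hc hg
    obtain ⟨b₁, hb₁⟩ := minInv_sameCycle hφ hψ hC
    obtain ⟨m, hm, hpos⟩ := hu f g φ ψ hφ hψ hd C b₁ hb₁
    refine ⟨⟨m + 1, by omega⟩, ?_⟩
    have h1 : (C.card + 1) / 2 = m + 2 := by omega
    have h2 : (∏ b ∈ C, H545.eps (g b - f b)) = ∏ b ∈ C, Bz.eps (g b - f b) :=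
      prod_congr rfl fun b _ => eps_eq (sub_ne_zero.mpr (hd b).symm)
    rw [h1, h2, pow_add]
    simpa using hpos) (by
    obtain ⟨f, g, hf, hg, hd⟩ := hex
    exact ⟨f, g, mat_of_bz hf, mat_of_bz hg, hd⟩)
  obtain ⟨φ, hφ⟩ := bz_of_mat hc hf
  refine ⟨f, ⟨φ, hφ⟩, fun K hK => ?_⟩
  have h3 := Vale.P039.H788.step3 (F := F) (cl := cl) (fun b c v h => hcl b c v h) (f := f) hφ
    (fun g ψ hψ hd c hc' => by
      set σ : Perm B := φ.trans ψ.symm with hσ
      obtain ⟨x, hx, hxc⟩ : ∃ x, σ x ≠ x ∧ c = σ.cycleOf x := by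
        obtain ⟨x, hx⟩ := (Perm.mem_cycleFactorsFinset_iff.mp hc').1.nonempty_support
        refine ⟨x, ?_, ?_⟩
        · rw [← (Perm.mem_cycleFactorsFinset_iff.mp hc').2 x hx]
          exact Perm.mem_support.mp hx
        · exact Perm.cycle_is_cycleOf hx hc'
      obtain ⟨m, hm, -⟩ := hu f g φ ψ hφ hψ (fun b => (hd b).symm) (Perm.support c) x (fun b => by
        rw [hxc, Perm.mem_support_cycleOf_iff' hx])
      exact ⟨m + 1, by omega⟩)
    (by
      intro h0
      apply hsum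
      rw [← h0]
      rw [← sum_filter_add_sum_filter_not (univ.filter (Vale.P039.H788.IsMat F))
        (fun g => ∀ b, f b ≠ g b)]
      have e2 : ∑ g ∈ (univ.filter (Vale.P039.H788.IsMat F)).filter
          (fun g => ¬ ∀ b, f b ≠ g b), ∏ b, Vale.P039.H788.eps (g b - f b) = 0 := by
        refine sum_eq_zero fun g hg => ?_
        have := (mem_filter.mp hg).2
        push Not at this
        obtain ⟨b, hb⟩ := this
        refine prod_eq_zero (mem_univ b) ?_
        rw [hb, sub_self]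
        rfl
      rw [e2, add_zero]
      refine sum_congr ?_ fun g hg => ?_
      · ext g
        simp only [mem_filter, mem_univ, true_and]
        constructor
        · rintro ⟨h1, h2⟩
          exact ⟨bz_of_mat hc h1, h2⟩
        · rintro ⟨h1, h2⟩
          exact ⟨mat_of_bz h1, h2⟩
      · have hd := (mem_filter.mp hg).2
        unfold H545.sg
        refine prod_congr rfl fun b _ => ?_
        rw [eps_eq (sub_ne_zero.mpr (hd b).symm), eps_eq']) hK
  obtain ⟨b, hb⟩ := h3
  by_cases h4 : ∃ v ∈ K, F b (f b + 1) = some v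
  · refine ⟨b, f b + 1, f b + 2, ?_, ?_, h4, fun v hv hF => hb ⟨fun _ => ⟨v, hv, hF⟩, fun _ => h4⟩⟩
    · generalize f b = i; revert i; decide
    · generalize f b = i; revert i; decide
  · have h5 : ∃ v ∈ K, F b (f b + 2) = some v := by
      by_contra h5
      exact hb ⟨fun h => absurd h h4, fun h => absurd h h5⟩
    refine ⟨b, f b + 2, f b + 1, ?_, ?_, h5, fun v hv hF => h4 ⟨v, hv, hF⟩⟩
    · generalize f b = i; revert i; decide
    · generalize f b = i; revert i; decide

end Vale.Agent.P039.Bt.H668
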