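import Vale.Agent.P039.Bz.Stmt
import Vale.Agent.P039.Bn.L2.Defs

/-!
# P039-B, adapter A2: `Cyc (Fo M b₀)` from the sign formula for alternating cycles of `PMap`s
-/

namespace Vale.Agent.P039.Bt.H668

open Finset Equiv Vale.Agent.P039.Bn

variable {B W V : Type} {M : PMap B W V} {b₀ : B}

theorem Fo_eq_some {b : Bz.BOff b₀} {j : Fin 3} {v : Bz.VOff M b₀} :
    Bz.Fo M b₀ b j = some v ↔ M.c j b.1 = v.1 := by
  unfold Bz.Fo
  split_ifs with h
  · constructor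
    · intro h1
      have := Option.some.inj h1
      rw [← this]
    · intro h1
      congr 1
      exact Subtype.ext h1
  · constructor
    · intro h1
      exact absurd h1 (by simp)
    · intro h1
      exact absurd (fun i => by rw [h1]; exact v.2 i) h

open Classical in
/-- extension of a colouring of the blacks off `b₀` -/
noncomputable def ex (b₀ : B) (f : Bz.BOff b₀ → Fin 3) (b : B) : Fin 3 :=
  if h : b ≠ b₀ then f ⟨b, h⟩ else 0

theorem ex_apply (f : Bz.BOff b₀ → Fin 3) (b : Bz.BOff b₀) : ex b₀ f b.1 = f b := by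
  unfold ex
  rw [dif_pos b.2]

open Classical in
/-- extension of a permutation of the blacks off `b₀` -/
noncomputable def nxt (σ : Perm (Bz.BOff b₀)) (b : B) : B :=
  if h : b ≠ b₀ then (σ ⟨b, h⟩).1 else b

theorem nxt_apply (σ : Perm (Bz.BOff b₀)) (b : Bz.BOff b₀) : nxt σ b.1 = (σ b).1 := by
  unfold nxt
  rw [dif_pos b.2]

theorem isMatch_ex {g : Bz.BOff b₀ → Fin 3} {ψ : Bz.BOff b₀ ≃ Bz.VOff M b₀}
    (h : ∀ b, Bz.Fo M b₀ b (g b) = some (ψ b)) : M.IsMatch b₀ (ex b₀ g) := by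
  have h1 : ∀ b : Bz.BOff b₀, M.c (ex b₀ g b.1) b.1 = (ψ b).1 := fun b => by
    rw [ex_apply]
    exact Fo_eq_some.mp (h b)
  refine ⟨fun b b' hb hb' e => ?_, fun v hv => ?_, fun b hb j => ?_⟩
  · have e1 := h1 ⟨b, hb⟩
    have e2 := h1 ⟨b', hb'⟩
    have e3 : (ψ ⟨b, hb⟩).1 = (ψ ⟨b', hb'⟩).1 := by rw [← e1, ← e2]; exact e
    exact congrArg Subtype.val (ψ.injective (Subtype.ext e3))
  · obtain ⟨b, hb⟩ := ψ.surjective ⟨v, hv⟩
    exact ⟨b.1, b.2, by rw [h1, hb]⟩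
  · have e1 := h1 ⟨b, hb⟩
    intro e
    exact (ψ ⟨b, hb⟩).2 j (by rw [← e1]; exact e.symm)

variable [Fintype B]

theorem isAlt_ex {f g : Bz.BOff b₀ → Fin 3} {φ ψ : Bz.BOff b₀ ≃ Bz.VOff M b₀}
    (hf : ∀ b, Bz.Fo M b₀ b (f b) = some (φ b)) (hg : ∀ b, Bz.Fo M b₀ b (g b) = some (ψ b))
    (hd : ∀ b, f b ≠ g b) {C : Finset (Bz.BOff b₀)} {b₁ : Bz.BOff b₀}
    (hC : ∀ b, b ∈ C ↔ Perm.SameCycle (φ.trans ψ.symm) b₁ b) :
    M.IsAlt (ex b₀ f) (ex b₀ g) (C.map (Function.Embedding.subtype _))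
      (nxt (φ.trans ψ.symm)) := by
  classical
  set σ : Perm (Bz.BOff b₀) := φ.trans ψ.symm with hσ
  have h1 : ∀ b : Bz.BOff b₀, M.c (ex b₀ g b.1) b.1 = (ψ b).1 := fun b => by
    rw [ex_apply]
    exact Fo_eq_some.mp (hg b)
  have h2 : ∀ b : Bz.BOff b₀, M.c (ex b₀ f b.1) b.1 = (φ b).1 := fun b => by
    rw [ex_apply]
    exact Fo_eq_some.mp (hf b)
  have hm : ∀ b : B, b ∈ C.map (Function.Embedding.subtype _) ↔ ∃ x ∈ C, x.1 = b := fun b => by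
    rw [mem_map]
    rfl
  have hCσ : ∀ b, b ∈ C → σ b ∈ C := fun b hb => by
    rw [hC] at hb ⊢
    exact Perm.sameCycle_apply_right.mpr hb
  refine ⟨?_, ?_, ?_, ?_, ?_, ?_, ?_⟩
  · intro b hb
    obtain ⟨x, -, rfl⟩ := (hm b).mp hb
    rw [ex_apply, ex_apply]
    exact hd x
  · exact ⟨b₁.1, (hm _).mpr ⟨b₁, (hC b₁).mpr (Perm.SameCycle.refl _ _), rfl⟩⟩
  · intro b hb
    obtain ⟨x, hx, rfl⟩ := (hm b).mp hb
    rw [nxt_apply]
    exact (hm _).mpr ⟨σ x, hCσ x hx, rfl⟩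
  · intro b hb
    obtain ⟨x, hx, rfl⟩ := (hm b).mp hb
    rw [nxt_apply, h2, h1]
    congr 1
    rw [hσ]
    simp
  · intro b hb b' hb' e
    obtain ⟨x, hx, rfl⟩ := (hm b).mp hb
    obtain ⟨y, hy, rfl⟩ := (hm b').mp hb'
    rw [h1, h1] at e
    exact congrArg Subtype.val (ψ.injective (Subtype.ext e))
  · intro b hb b' hb' e
    obtain ⟨x, hx, rfl⟩ := (hm b).mp hb
    obtain ⟨y, hy, rfl⟩ := (hm b').mp hb'
    rw [nxt_apply, nxt_apply] at e
    exact congrArg Subtype.val (σ.injective (Subtype.ext e))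
  · rintro X ⟨b, hb, hbX⟩ hX b' hb'
    obtain ⟨x, hx, rfl⟩ := (hm b).mp hb
    obtain ⟨y, hy, rfl⟩ := (hm b').mp hb'
    have hxy : σ.SameCycle x y := ((hC x).mp hx).symm.trans ((hC y).mp hy)
    obtain ⟨n, -, hn⟩ := hxy.exists_pow_eq'
    have key : ∀ n : ℕ, ((σ ^ n) x) ∈ C ∧ ((σ ^ n) x).1 ∈ X := by
      intro n
      induction n with
      | zero => exact ⟨hx, hbX⟩
      | succ n ih =>
        rw [pow_succ', Perm.mul_apply]
        refine ⟨hCσ _ ih.1, ?_⟩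
        have := hX _ ((hm _).mpr ⟨_, ih.1, rfl⟩) ih.2
        rwa [nxt_apply] at this
    rw [← hn]
    exact (key n).2

/-- **Adapter**: `Cyc (Fo M b₀)` from the sign formula on the level of `M`. -/
theorem cyc_of {ep : Fin 3 → ℤ} (h1 : ep 1 = 1) (h2 : ep 2 = -1) [DecidableEq B]
    (hu : ∃ u : B → Fin 3 → ℤ, ∀ (f g : B → Fin 3) (S : Finset B) (nx : B → B),
      M.IsAlt f g S nx → b₀ ∉ S → M.IsMatch b₀ g → Odd S.card ∧ 3 ≤ S.card ∧
        0 < (-1) ^ ((S.card - 3) / 2) * (∏ b ∈ S, ep (g b - f b)) *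
          ∑ b ∈ S, (u b (f b) - u b (g b))) : Bz.Cyc (Bz.Fo M b₀) := by
  obtain ⟨u, hu⟩ := hu
  refine ⟨fun b j => (u b.1 j : ℝ), fun f g φ ψ hf hg hd C b₁ hC => ?_⟩
  have hep : ∀ x : Fin 3, x ≠ 0 → ep x = Bz.eps x := by
    intro x hx
    fin_cases x
    · exact absurd rfl hx
    · exact h1
    · exact h2
  obtain ⟨⟨k, hk⟩, h3, hpos⟩ := hu _ _ _ _ (isAlt_ex hf hg hd hC) (by
    rw [mem_map]
    rintro ⟨x, -, hx⟩
    exact x.2 hx) (isMatch_ex hg)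
  rw [card_map] at hk h3 hpos
  rw [prod_map, sum_map] at hpos
  refine ⟨k - 1, by omega, ?_⟩
  have e1 : (C.card - 3) / 2 = k - 1 := by omega
  have e2 : ∏ x ∈ C, ep (ex b₀ g ((Function.Embedding.subtype _) x) -
      ex b₀ f ((Function.Embedding.subtype _) x)) = ∏ b ∈ C, Bz.eps (g b - f b) := by
    refine prod_congr rfl fun x _ => ?_
    show ep (ex b₀ g x.1 - ex b₀ f x.1) = _
    rw [ex_apply, ex_apply]
    exact hep _ (sub_ne_zero.mpr (hd x).symm)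
  have e3 : ∑ x ∈ C, (u ((Function.Embedding.subtype _) x)
        (ex b₀ f ((Function.Embedding.subtype _) x)) -
      u ((Function.Embedding.subtype _) x) (ex b₀ g ((Function.Embedding.subtype _) x))) =
      ∑ b ∈ C, (u b.1 (f b) - u b.1 (g b)) := by
    refine sum_congr rfl fun x _ => ?_
    show u x.1 (ex b₀ f x.1) - u x.1 (ex b₀ g x.1) = _
    rw [ex_apply, ex_apply]
  rw [e1, e2, e3] at hpos
  have h4 : (0 : ℝ) < (((-1 : ℤ) ^ (k - 1) * (∏ b ∈ C, Bz.eps (g b - f b)) *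
      ∑ b ∈ C, (u b.1 (f b) - u b.1 (g b)) : ℤ) : ℝ) := by exact_mod_cast hpos
  push_cast at h4 ⊢
  exact h4

end Vale.Agent.P039.Bt.H668
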