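import Vale.Agent.P039.Bz.Conv
import Vale.Agent.P039.H481.Cut

/-!
# P039-B, adapter A5: `GlueStmt` from `H481.ham_of_prime`
-/

namespace Vale.Agent.P039.Bt.H668

open Finset Vale.Agent.P039.Bn Vale.Agent.P039.Sk Vale.Agent.P039.Bz

variable {B W V : Type} [Fintype B] [Fintype W]

theorem cutN_eq (X : Web B W) (s : B ⊕ W → Bool) : H481.cutN X s =
    {p : Fin 3 × B | ¬ (Sum.inl p.2 ∈ {x | s x = true} ↔
      Sum.inr (X.e p.1 p.2) ∈ {x | s x = true})}.ncard := by
  classical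
  unfold H481.cutN
  rw [← Set.ncard_coe_finset]
  congr 1
  ext p
  simp only [coe_filter, mem_univ, true_and, Set.mem_ofPred_eq]
  rw [← Bool.eq_iff_iff]

theorem te_of_c3 {M : PMap B W V} (h : C3 M) : H481.TE (toWeb M) := by
  rintro s ⟨x, hx⟩ ⟨y, hy⟩
  rw [cutN_eq]
  refine (c3_iff_vset M).mp h {x | s x = true} ⟨x, hx⟩ ⟨y, ?_⟩
  intro hy'
  have : s y = true := hy'
  rw [hy] at this
  exact Bool.noConfusion this

theorem c3_of_te {X : Web B W} {L : Lab X V} (h : H481.TE X) : C3 (ofLab L) := by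
  classical
  rw [c3_iff_vset]
  rintro U ⟨x, hx⟩ ⟨y, hy⟩
  have := h (fun x => decide (x ∈ U)) ⟨x, decide_eq_true hx⟩ ⟨y, decide_eq_false hy⟩
  rw [cutN_eq] at this
  have e : {x | decide (x ∈ U) = true} = U := by
    ext x
    exact decide_eq_true_iff
  rw [e] at this
  exact this

omit [Fintype B] [Fintype W] in
theorem exists_two {A : Type} [Finite A] {U : Set A} (h : 2 ≤ U.ncard) :
    ∃ x y, x ≠ y ∧ x ∈ U ∧ y ∈ U := by
  obtain ⟨x, hx, y, hy, hxy⟩ := (Set.one_lt_ncard (Set.toFinite U)).mp h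
  exact ⟨x, y, hxy, hx, hy⟩

theorem c4_of_prime {X : Web B W} {L : Lab X V} (h : H481.TE X) (h4 : H481.Prime X) :
    C4 (ofLab L) := by
  classical
  rw [c4_iff_vset _ (c3_of_te h)]
  intro U h1 h2
  obtain ⟨x, y, hxy, hx, hy⟩ := exists_two h1
  obtain ⟨x', y', hxy', hx', hy'⟩ := exists_two h2
  have := h4 (fun x => decide (x ∈ U)) ⟨x, y, hxy, decide_eq_true hx, decide_eq_true hy⟩
    ⟨x', y', hxy', decide_eq_false hx', decide_eq_false hy'⟩
  rw [cutN_eq] at this
  have e : {x | decide (x ∈ U) = true} = U := by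
    ext x
    exact decide_eq_true_iff
  rw [e] at this
  exact this

/-- **GlueStmt.** -/
theorem glueStmt : Bz.GlueStmt := by
  intro hA B W V _ _ _ M hS h3 b i
  have key := H481.ham_of_prime (fun B W V _ _ _ X L h2 hV hT hP i b => by
    have hc3 : C3 (ofLab L) := c3_of_te hT
    obtain ⟨m, hm, hmb⟩ := hA B W V (ofLab L) ⟨conn_of_c3 _ hc3, hV⟩ hc3 (c4_of_prime hT hP) b i
    rw [hamM_iff_eqvGen] at hm
    refine ⟨m, hmb, hm.1, fun x y => ?_⟩
    have := hm.2 x y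
    clear hm
    induction this with
    | rel x y h =>
      obtain ⟨j, b, hj, hx, hy⟩ := h
      exact Relation.EqvGen.rel _ _ ⟨b, j, hj, hx, hy⟩
    | refl x => exact Relation.EqvGen.refl _
    | symm x y _ ih => exact ih.symm
    | trans x y z _ _ ih1 ih2 => exact ih1.trans _ _ _ ih2) (Fintype.card B) B W V (toWeb M)
    (toLab M) rfl hS.card (te_of_c3 h3) i b
  obtain ⟨m, hmb, hm1, hm2⟩ := key
  refine ⟨m, ?_, hmb⟩
  rw [hamM_iff_eqvGen]
  refine ⟨hm1, fun x y => ?_⟩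
  have := hm2 x y
  clear hm2
  induction this with
  | rel x y h =>
    obtain ⟨b, j, hj, hx, hy⟩ := h
    exact Relation.EqvGen.rel _ _ ⟨j, b, hj, hx, hy⟩
  | refl x => exact Relation.EqvGen.refl _
  | symm x y _ ih => exact ih.symm
  | trans x y z _ _ ih1 ih2 => exact ih1.trans _ _ _ ih2

end Vale.Agent.P039.Bt.H668
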